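import Vale.Agent.P172.Hyp
import Vale.Agent.Results.P198.Cannon

open Vale.Agent.P198 Vale.Agent.P172

universe u

/-- Hyperbolic groups with boundary a 2-sphere act geometrically on a proper CAT(-1) space. -/
theorem Vale.Agent.Results.P172.SphereBdry.result (G : Type u) [Group G] (S : Finset G)
    (hS : Subgroup.closure (S : Set G) = ⊤) (δ : ℕ) (hδ : Thin S δ)
    (h : Nonempty (Bdry S ≃ₜ Metric.sphere (0 : EuclideanSpace ℝ (Fin 3)) 1)) :
    ∃ (X : Type) (_ : MetricSpace X) (_ : MulAction G X),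
      Nonempty X ∧ ProperSpace X ∧ IsCAT UpperHalfPlane X ∧
      (∀ (g : G) (x y : X), dist (g • x) (g • y) = dist x y) ∧
      (∀ K : Set X, IsCompact K → {g : G | ((fun x => g • x) '' K ∩ K).Nonempty}.Finite) ∧
      (∃ K : Set X, IsCompact K ∧ ∀ x : X, ∃ g : G, ∃ y ∈ K, g • y = x) := by
  obtain ⟨ρ, h1, h2, ⟨K, hK, h3⟩, -⟩ := Vale.Agent.Results.P198.Cannon.result G S hS δ hδ h
  let act : MulAction G HS :=
    { smul := fun g x => toHS (ρ g x)
      one_smul := fun x => by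
        show ρ 1 x = x
        rw [map_one]
        rfl
      mul_smul := fun g g' x => by
        show ρ (g * g') x = ρ g (ρ g' x)
        rw [map_mul]
        rfl }
  refine ⟨HS, inferInstance, act, ⟨toHS C2.e0⟩, inferInstance, cat_HS, fun g x y => h1 g x y, ?_,
    toHS '' K, hK.image cont_toHS, ?_⟩
  · intro L hL
    obtain ⟨R, hR⟩ := bd_sub hL.isBounded
    refine (h2 _ (C2.cpt_H3 R)).subset ?_
    rintro g ⟨y, ⟨x, hx, rfl⟩, hy⟩
    exact ⟨ρ g x, ⟨x, hR x hx, rfl⟩, hR _ hy⟩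
  · intro x
    obtain ⟨g, y, hy, rfl⟩ := h3 x
    exact ⟨g, toHS y, ⟨y, hy, rfl⟩, rfl⟩
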